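import Mathlib

/-!
# P042.DigitStatistics: row COUNT

Few numbers up to `N` avoid a pattern `v 1, …, v k` at the places `i, 2 i, …, k i` for all `i`.
-/

namespace Vale.Agent.P042.H546

open Finset

/-- functions that avoid a word at disjoint places -/
theorem card_fun_avoid {P β k S : ℕ} (pos : Fin S → Fin k → Fin P)
    (hpos : Function.Injective (fun z : Fin S × Fin k => pos z.1 z.2)) (w : Fin k → Fin β) :
    Fintype.card {f : Fin P → Fin β // ∀ s, (fun j => f (pos s j)) ≠ w} ≤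
      β ^ (P - k * S) * (β ^ k - 1) ^ S := by
  classical
  let R : Finset (Fin P) := Finset.univ.image (fun z : Fin S × Fin k => pos z.1 z.2)
  have hR : R.card = k * S := by
    rw [Finset.card_image_of_injective _ hpos, Finset.card_univ, Fintype.card_prod,
      Fintype.card_fin, Fintype.card_fin, mul_comm]
  let Φ : {f : Fin P → Fin β // ∀ s, (fun j => f (pos s j)) ≠ w} →
      ({x : Fin P // x ∉ R} → Fin β) × (Fin S → {g : Fin k → Fin β // g ≠ w}) :=
    fun f => (fun x => f.1 x.1, fun s => ⟨fun j => f.1 (pos s j), f.2 s⟩)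
  have hΦ : Function.Injective Φ := by
    intro f g hfg
    apply Subtype.ext
    funext x
    by_cases hx : x ∈ R
    · obtain ⟨z, -, rfl⟩ := Finset.mem_image.mp hx
      have h1 := congrFun (congrArg Prod.snd hfg) z.1
      exact congrFun (congrArg Subtype.val h1) z.2
    · exact congrFun (congrArg Prod.fst hfg) ⟨x, hx⟩
  refine (Fintype.card_le_of_injective Φ hΦ).trans (le_of_eq ?_)
  rw [Fintype.card_prod, Fintype.card_fun, Fintype.card_fun, Fintype.card_fin, Fintype.card_fin]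
  congr 2
  · rw [Fintype.card_subtype_compl (fun x => x ∈ R), Fintype.card_fin, Fintype.card_coe, hR]
  · have h2 : Fintype.card {g : Fin k → Fin β // ¬ g = w} =
        Fintype.card (Fin k → Fin β) - Fintype.card {g : Fin k → Fin β // g = w} :=
      Fintype.card_subtype_compl (fun g => g = w)
    rw [Fintype.card_subtype_eq, Fintype.card_fun, Fintype.card_fin, Fintype.card_fin] at h2
    convert h2 using 1

/-- the places are different -/
theorem pos_inj {k : ℕ} {j j' s s' : ℕ} (hj : 1 ≤ j) (hj2 : j ≤ k) (hj' : 1 ≤ j') (hj2' : j' ≤ k)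
    (h : j * (1 + (k + 1) * s) = j' * (1 + (k + 1) * s')) : j = j' ∧ s = s' := by
  have h1 : j % (k + 1) = j' % (k + 1) := by
    have e1 : (j * (1 + (k + 1) * s)) % (k + 1) = j % (k + 1) := by
      rw [show j * (1 + (k + 1) * s) = j + (k + 1) * (j * s) by ring, Nat.add_mul_mod_self_left]
    have e2 : (j' * (1 + (k + 1) * s')) % (k + 1) = j' % (k + 1) := by
      rw [show j' * (1 + (k + 1) * s') = j' + (k + 1) * (j' * s') by ring,
        Nat.add_mul_mod_self_left]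
    rw [← e1, ← e2, h]
  rw [Nat.mod_eq_of_lt (by omega), Nat.mod_eq_of_lt (by omega)] at h1
  subst h1
  have h2 : 1 + (k + 1) * s = 1 + (k + 1) * s' := Nat.eq_of_mul_eq_mul_left (by omega) h
  have h3 : (k + 1) * s = (k + 1) * s' := by omega
  exact ⟨rfl, Nat.eq_of_mul_eq_mul_left (by omega) h3⟩

open scoped Classical in
/-- residues that avoid the pattern -/
theorem card_res {β k P S : ℕ} (hβ : 2 ≤ β) (hk : 1 ≤ k) {v : ℕ → ℕ} (hv : ∀ j, v j < β)
    (hS : k * (k + 1) * S ≤ P) :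
    ((range (β ^ P)).filter (fun r => ∀ s < S, ∃ j, 1 ≤ j ∧ j ≤ k ∧
      r / β ^ (j * (1 + (k + 1) * s)) % β ≠ v j)).card ≤
      β ^ (P - k * S) * (β ^ k - 1) ^ S := by
  classical
  have hβ0 : 0 < β := by omega
  have hlt : ∀ s < S, ∀ j ≤ k, j * (1 + (k + 1) * s) < P := by
    intro s hs j hj
    have h1 : j * (1 + (k + 1) * s) ≤ k * (1 + (k + 1) * s) := Nat.mul_le_mul_right _ hj
    have h2 : k * (k + 1) * (s + 1) ≤ k * (k + 1) * S := Nat.mul_le_mul_left _ hs
    have h3 : k * (1 + (k + 1) * s) < k * (k + 1) * (s + 1) := by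
      have : k * (k + 1) * (s + 1) = k * (1 + (k + 1) * s) + k * k := by ring
      rw [this]
      have : 0 < k * k := Nat.mul_pos hk hk
      omega
    omega
  let pos : Fin S → Fin k → Fin P := fun s j => ⟨(j.1 + 1) * (1 + (k + 1) * s.1),
    hlt s.1 s.2 (j.1 + 1) (by omega)⟩
  have hpos : Function.Injective (fun z : Fin S × Fin k => pos z.1 z.2) := by
    rintro ⟨s, j⟩ ⟨s', j'⟩ h
    have h1 : (j.1 + 1) * (1 + (k + 1) * s.1) = (j'.1 + 1) * (1 + (k + 1) * s'.1) :=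
      congrArg Fin.val h
    have h2 := pos_inj (k := k) (by omega) (by omega) (by omega) (by omega) h1
    have h3 : j = j' := Fin.ext (by omega)
    have h4 : s = s' := Fin.ext h2.2
    rw [h3, h4]
  let w : Fin k → Fin β := fun j => ⟨v (j.1 + 1), hv _⟩
  rw [← Fintype.card_coe]
  refine le_trans ?_ (card_fun_avoid pos hpos w)
  let dig : ℕ → Fin P → Fin β := fun r x => ⟨r / β ^ x.1 % β, Nat.mod_lt _ hβ0⟩
  have hdig : ∀ r < β ^ P, ∀ r' < β ^ P, dig r = dig r' → r = r' := by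
    intro r hr r' hr' h
    have h1 : finFunctionFinEquiv.symm (⟨r, hr⟩ : Fin (β ^ P)) =
        finFunctionFinEquiv.symm (⟨r', hr'⟩ : Fin (β ^ P)) := by
      funext x
      exact congrFun h x
    exact congrArg Fin.val (finFunctionFinEquiv.symm.injective h1)
  refine Fintype.card_le_of_injective (fun r => ⟨dig r.1, ?_⟩) ?_
  · intro s hs
    have hr := (Finset.mem_filter.mp r.2).2 s.1 s.2
    obtain ⟨j, hj1, hj2, hj⟩ := hr
    apply hj
    have h1 := congrFun hs ⟨j - 1, by omega⟩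
    have h2 := congrArg Fin.val h1
    simp only [pos, dig, w] at h2
    rw [show j - 1 + 1 = j by omega] at h2
    exact h2
  · intro r r' h
    apply Subtype.ext
    refine hdig r.1 (Finset.mem_range.mp (Finset.mem_filter.mp r.2).1) r'.1
      (Finset.mem_range.mp (Finset.mem_filter.mp r'.2).1) ?_
    exact congrArg Subtype.val h

/-- the count, in natural numbers -/
theorem count_nat {β k P S : ℕ} (hβ : 2 ≤ β) (hk : 1 ≤ k) {v : ℕ → ℕ} (hv : ∀ j, v j < β)
    (hS : k * (k + 1) * S ≤ P) (N : ℕ) (A : Set ℕ) (hA : ∀ n ∈ A, 1 ≤ n ∧ n ≤ N)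
    (h : ∀ n ∈ A, ∀ i P : ℕ, 1 ≤ i → k * i < P → n / β ^ P < N / β ^ P →
      ∃ j, 1 ≤ j ∧ j ≤ k ∧ n / β ^ (j * i) % β ≠ v j) :
    A.ncard ≤ (N / β ^ P) * (β ^ (P - k * S) * (β ^ k - 1) ^ S) + β ^ P := by
  classical
  have hβ0 : 0 < β := by omega
  have hP0 : 0 < β ^ P := Nat.pow_pos hβ0
  have hlt : ∀ s < S, ∀ j ≤ k, j * (1 + (k + 1) * s) < P := by
    intro s hs j hj
    have h1 : j * (1 + (k + 1) * s) ≤ k * (1 + (k + 1) * s) := Nat.mul_le_mul_right _ hj
    have h2 : k * (k + 1) * (s + 1) ≤ k * (k + 1) * S := Nat.mul_le_mul_left _ hs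
    have h3 : k * (1 + (k + 1) * s) < k * (k + 1) * (s + 1) := by
      have : k * (k + 1) * (s + 1) = k * (1 + (k + 1) * s) + k * k := by ring
      rw [this]
      have : 0 < k * k := Nat.mul_pos hk hk
      omega
    omega
  set E := (range (β ^ P)).filter (fun r => ∀ s < S, ∃ j, 1 ≤ j ∧ j ≤ k ∧
      r / β ^ (j * (1 + (k + 1) * s)) % β ≠ v j) with hE
  set F1 : Finset ℕ := ((range (N / β ^ P)) ×ˢ E).image (fun z => β ^ P * z.1 + z.2) with hF1
  set F2 : Finset ℕ := (range (β ^ P)).image (fun z => β ^ P * (N / β ^ P) + z) with hF2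
  have hsub : A ⊆ ((F1 ∪ F2 : Finset ℕ) : Set ℕ) := by
    intro n hn
    rw [Finset.mem_coe, Finset.mem_union]
    have hn2 : n / β ^ P ≤ N / β ^ P := Nat.div_le_div_right (hA n hn).2
    rcases Nat.lt_or_ge (n / β ^ P) (N / β ^ P) with hlt' | hge
    · left
      rw [hF1, Finset.mem_image]
      refine ⟨(n / β ^ P, n % β ^ P), ?_, Nat.div_add_mod n (β ^ P)⟩
      rw [Finset.mem_product, Finset.mem_range]
      refine ⟨hlt', ?_⟩
      rw [hE, Finset.mem_filter, Finset.mem_range]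
      refine ⟨Nat.mod_lt _ hP0, ?_⟩
      intro s hs
      obtain ⟨j, hj1, hj2, hj⟩ := h n hn (1 + (k + 1) * s) P (by omega)
        (hlt s hs k le_rfl) hlt'
      refine ⟨j, hj1, hj2, ?_⟩
      intro hcon
      apply hj
      rw [← hcon]
      have hx := hlt s hs j hj2
      set x := j * (1 + (k + 1) * s) with hxdef
      -- digits of the residue
      have e1 : β ^ P = β ^ x * β ^ (P - x) := by
        rw [← pow_add]
        congr 1
        omega
      show n / β ^ x % β = n % β ^ P / β ^ x % β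
      rw [e1, Nat.mod_mul_right_div_self]
      have e2 : β ^ (P - x) = β * β ^ (P - x - 1) := by
        rw [← pow_succ']
        congr 1
        omega
      rw [e2, Nat.mod_mul_right_mod]
    · right
      have heq : n / β ^ P = N / β ^ P := le_antisymm hn2 hge
      rw [hF2, Finset.mem_image]
      refine ⟨n % β ^ P, Finset.mem_range.mpr (Nat.mod_lt _ hP0), ?_⟩
      rw [← heq]
      exact Nat.div_add_mod n (β ^ P)
  have h1 : A.ncard ≤ (F1 ∪ F2).card := by
    rw [← Set.ncard_coe_finset]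
    exact Set.ncard_le_ncard hsub (Finset.finite_toSet _)
  have h2 : F1.card ≤ (N / β ^ P) * (β ^ (P - k * S) * (β ^ k - 1) ^ S) := by
    refine Finset.card_image_le.trans ?_
    rw [Finset.card_product, Finset.card_range]
    exact Nat.mul_le_mul_left _ (card_res hβ hk hv hS)
  have h3 : F2.card ≤ β ^ P := by
    refine Finset.card_image_le.trans ?_
    rw [Finset.card_range]
  exact h1.trans ((Finset.card_union_le _ _).trans (Nat.add_le_add h2 h3))

/-- COUNT -/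
theorem count {β k : ℕ} (hβ : 2 ≤ β) (hk : 1 ≤ k) {v : ℕ → ℕ} (hv : ∀ j, v j < β) :
    ∃ θ C : ℝ, 0 < θ ∧ θ < 1 ∧ 0 < C ∧ ∀ (N : ℕ) (A : Set ℕ), 1 ≤ N →
      (∀ n ∈ A, 1 ≤ n ∧ n ≤ N) →
      (∀ n ∈ A, ∀ i P : ℕ, 1 ≤ i → k * i < P → n / β ^ P < N / β ^ P →
        ∃ j, 1 ≤ j ∧ j ≤ k ∧ n / β ^ (j * i) % β ≠ v j) →
      (A.ncard : ℝ) ≤ C * (N : ℝ) ^ θ := by
  have hβ1 : (1 : ℝ) < β := by exact_mod_cast (by omega : 1 < β)
  have hβ0 : (0 : ℝ) < β := by linarith
  have hlogβ : 0 < Real.log β := Real.log_pos hβ1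
  set q : ℝ := 1 - ((β : ℝ) ^ k)⁻¹ with hq
  have hpk : (2 : ℝ) ≤ (β : ℝ) ^ k := by
    have h1 : β ^ 1 ≤ β ^ k := Nat.pow_le_pow_right (by omega) hk
    have h2 : 2 ≤ β ^ k := by rw [pow_one] at h1; omega
    exact_mod_cast h2
  have hinv : ((β : ℝ) ^ k)⁻¹ ≤ 1 / 2 := by
    rw [← one_div]
    exact one_div_le_one_div_of_le (by norm_num) hpk
  have hinv0 : 0 < ((β : ℝ) ^ k)⁻¹ := by positivity
  have hq0 : 0 < q := by linarith
  have hq1 : q < 1 := by linarith
  have hlogq : Real.log q < 0 := Real.log_neg hq0 hq1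
  set D : ℕ := k * (k + 1) with hD
  have hD0 : 0 < D := Nat.mul_pos (by omega) (by omega)
  have hDr : (0 : ℝ) < D := by exact_mod_cast hD0
  set δ : ℝ := -Real.log q / (2 * D * Real.log β) with hδ
  have hδ0 : 0 < δ := div_pos (by linarith) (by positivity)
  refine ⟨max (1 / 2) (1 - δ), q⁻¹ + 1, lt_max_of_lt_left (by norm_num),
    max_lt (by norm_num) (by linarith), by positivity, ?_⟩
  intro N A hN hA h
  set T := Nat.log β N with hT
  set P := T / 2 with hP
  set S := P / D with hS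
  have hSP : k * (k + 1) * S ≤ P := by
    rw [← hD]
    exact Nat.mul_div_le P D
  have hNr : (1 : ℝ) ≤ N := by exact_mod_cast hN
  have hN0 : (0 : ℝ) < N := by linarith
  have h0 := count_nat hβ hk hv hSP N A hA h
  -- first term
  have hTN : β ^ T ≤ N := Nat.pow_log_le_self β (by omega)
  have hNT : N < β ^ (T + 1) := Nat.lt_pow_succ_log_self (by omega) N
  have hP2 : ((β : ℝ) ^ P) ^ 2 ≤ N := by
    have h1 : β ^ (P * 2) ≤ β ^ T := Nat.pow_le_pow_right (by omega) (by omega)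
    have h2 : β ^ (P * 2) ≤ N := h1.trans hTN
    rw [← pow_mul]
    exact_mod_cast h2
  have hPs : (β : ℝ) ^ P ≤ (N : ℝ) ^ (1 / 2 : ℝ) := by
    rw [← Real.sqrt_eq_rpow]
    exact Real.le_sqrt_of_sq_le hP2
  have hkS : k * S ≤ P := by
    refine le_trans ?_ hSP
    exact Nat.mul_le_mul_right _ (Nat.le_mul_of_pos_right k (by omega))
  have hmain : ((N / β ^ P * (β ^ (P - k * S) * (β ^ k - 1) ^ S) : ℕ) : ℝ) ≤ N * q ^ S := by
    have e1 : ((β ^ k - 1 : ℕ) : ℝ) = (β : ℝ) ^ k * q := by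
      have : 1 ≤ β ^ k := Nat.one_le_pow _ _ (by omega)
      rw [Nat.cast_sub this, hq]
      push_cast
      field_simp
    have e2 : (β : ℝ) ^ (P - k * S) * ((β : ℝ) ^ k * q) ^ S = (β : ℝ) ^ P * q ^ S := by
      rw [mul_pow, ← pow_mul, ← mul_assoc, ← pow_add, Nat.sub_add_cancel hkS]
    have e3 : ((N / β ^ P : ℕ) : ℝ) ≤ (N : ℝ) / (β : ℝ) ^ P := by
      have := @Nat.cast_div_le ℝ _ _ _ N (β ^ P)
      push_cast at this
      exact this
    calc ((N / β ^ P * (β ^ (P - k * S) * (β ^ k - 1) ^ S) : ℕ) : ℝ)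
        = ((N / β ^ P : ℕ) : ℝ) * ((β : ℝ) ^ (P - k * S) * (((β ^ k - 1 : ℕ) : ℝ)) ^ S) := by
          push_cast
          ring
      _ = ((N / β ^ P : ℕ) : ℝ) * ((β : ℝ) ^ P * q ^ S) := by rw [e1, e2]
      _ ≤ (N : ℝ) / (β : ℝ) ^ P * ((β : ℝ) ^ P * q ^ S) :=
          mul_le_mul_of_nonneg_right e3 (by positivity)
      _ = N * q ^ S := by
          have : (β : ℝ) ^ P ≠ 0 := by positivity
          field_simp
  -- q ^ S against N ^ (-δ)
  have hTS : T + 1 ≤ 2 * D * (S + 1) := by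
    have h1 : T ≤ 2 * P + 1 := by omega
    have h2 : P < D * (S + 1) := by
      rw [hS]
      exact Nat.lt_mul_div_succ P hD0
    have h3 : 2 * (P + 1) ≤ 2 * (D * (S + 1)) := Nat.mul_le_mul_left 2 h2
    have h4 : 2 * D * (S + 1) = 2 * (D * (S + 1)) := by ring
    omega
  have hNδ : (N : ℝ) ^ δ * q ^ (S + 1) ≤ 1 := by
    have e1 : (N : ℝ) ≤ (β : ℝ) ^ (2 * D * (S + 1)) := by
      have h1 : N ≤ β ^ (2 * D * (S + 1)) :=
        hNT.le.trans (Nat.pow_le_pow_right (by omega) hTS)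
      exact_mod_cast h1
    have e2 : Real.log N ≤ (2 * D * (S + 1) : ℝ) * Real.log β := by
      have := Real.log_le_log hN0 e1
      rw [Real.log_pow] at this
      push_cast at this
      exact this
    have e3 : δ * Real.log N ≤ -Real.log q * (S + 1) := by
      calc δ * Real.log N ≤ δ * ((2 * D * (S + 1) : ℝ) * Real.log β) :=
            mul_le_mul_of_nonneg_left e2 hδ0.le
        _ = -Real.log q * (S + 1) := by
            rw [hδ]
            field_simp
    have e4 : (N : ℝ) ^ δ = Real.exp (δ * Real.log N) := by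
      rw [Real.rpow_def_of_pos hN0, mul_comm]
    have e5 : q ^ (S + 1) = Real.exp (Real.log q * (S + 1)) := by
      have : q ^ (S + 1) = q ^ ((S + 1 : ℕ) : ℝ) := (Real.rpow_natCast q (S + 1)).symm
      rw [this, Real.rpow_def_of_pos hq0]
      push_cast
      ring_nf
    rw [e4, e5, ← Real.exp_add]
    apply Real.exp_le_one_iff.mpr
    linarith
  have hqS : (N : ℝ) * q ^ S ≤ q⁻¹ * (N : ℝ) ^ (1 - δ) := by
    have hNδ0 : 0 < (N : ℝ) ^ δ := Real.rpow_pos_of_pos hN0 δ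
    have e1 : (N : ℝ) ^ (1 - δ) = N / (N : ℝ) ^ δ := by
      rw [Real.rpow_sub hN0, Real.rpow_one]
    rw [e1]
    have e2 : q ^ S ≤ q⁻¹ * ((N : ℝ) ^ δ)⁻¹ := by
      rw [← mul_inv, le_inv_comm₀ (by positivity) (by positivity), ← one_div,
        le_div_iff₀ (by positivity)]
      calc q * (N : ℝ) ^ δ * q ^ S = (N : ℝ) ^ δ * q ^ (S + 1) := by ring
        _ ≤ 1 := hNδ
    calc (N : ℝ) * q ^ S ≤ N * (q⁻¹ * ((N : ℝ) ^ δ)⁻¹) :=
          mul_le_mul_of_nonneg_left e2 hN0.le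
      _ = q⁻¹ * (N / (N : ℝ) ^ δ) := by ring
  have hθ1 : (N : ℝ) ^ (1 - δ) ≤ (N : ℝ) ^ (max (1 / 2) (1 - δ) : ℝ) :=
    Real.rpow_le_rpow_of_exponent_le hNr (le_max_right _ _)
  have hθ2 : (N : ℝ) ^ (1 / 2 : ℝ) ≤ (N : ℝ) ^ (max (1 / 2) (1 - δ) : ℝ) :=
    Real.rpow_le_rpow_of_exponent_le hNr (le_max_left _ _)
  have h0' : (A.ncard : ℝ) ≤
      ((N / β ^ P * (β ^ (P - k * S) * (β ^ k - 1) ^ S) : ℕ) : ℝ) + (β : ℝ) ^ P := by
    exact_mod_cast h0
  have hqi : 0 ≤ q⁻¹ := by positivity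
  calc (A.ncard : ℝ) ≤ _ := h0'
    _ ≤ N * q ^ S + (N : ℝ) ^ (1 / 2 : ℝ) := add_le_add hmain hPs
    _ ≤ q⁻¹ * (N : ℝ) ^ (1 - δ) + (N : ℝ) ^ (1 / 2 : ℝ) := by linarith
    _ ≤ q⁻¹ * (N : ℝ) ^ (max (1 / 2) (1 - δ) : ℝ) + (N : ℝ) ^ (max (1 / 2) (1 - δ) : ℝ) :=
        add_le_add (mul_le_mul_of_nonneg_left hθ1 hqi) hθ2
    _ = (q⁻¹ + 1) * (N : ℝ) ^ (max (1 / 2) (1 - δ) : ℝ) := by ring

end Vale.Agent.P042.H546
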